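import Vale.Agent.P157.Families
import Vale.Agent.P157.SmallBeta

/-!
Block concavity of the four families of log-potentials, stated for the log-potential itself (the
arguments are those of `Families` and `SmallBeta`).
-/

noncomputable section

open MeasureTheory ProbabilityTheory Filter
open scoped ENNReal Topology

namespace Vale.Agent.P157.Parisi.Classes

open Vale.Agent.P157

variable {ν : Measure ℝ} [IsFiniteMeasure ν] {τ : Measure (ℝ × ℝ)} [IsFiniteMeasure τ]

theorem blockConcave_positiveDefinite (hν : ν.real Set.univ < 1) (c : ℝ) :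
    BlockConcave fun z => c + Real.log (1 - ∫ t, Real.cos (t * z) ∂ν) := by
  have h := blockConcave_of_zeroPhase (ν := ν.map zeroEmb) (by rwa [mass_map_zeroEmb])
    map_zeroEmb_compl c
  unfold pot at h
  simp only [cosT_map_zeroEmb] at h
  exact h

theorem blockConcave_neighbourhood (hν : ν.real Set.univ < 1)
    (hm : Integrable (fun t => t ^ 2) ν) (hne : ν {t | t ≠ 0} ≠ 0) :
    ∃ δ > 0, δ < 1 - ν.real Set.univ ∧ ∀ (τ : Measure (ℝ × ℝ)) [IsFiniteMeasure τ],
      Integrable (fun p => p.1 ^ 2) τ → τ.real Set.univ ≤ δ → ∫ p, p.1 ^ 2 ∂τ ≤ δ →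
      ∀ c : ℝ, BlockConcave fun z =>
        c + Real.log (1 - (∫ t, Real.cos (t * z) ∂ν) - ∫ p, Real.cos (p.1 * z + p.2) ∂τ) := by
  obtain ⟨c₀, hc₀, hc⟩ := psi2_zeroEmb_ge hm hne
  set μ₀ := ν.map zeroEmb
  have hm0 : Integrable (fun p : ℝ × ℝ => p.1 ^ 2) μ₀ := by
    rw [integrable_map_measure (by fun_prop) measurable_zeroEmb.aemeasurable]
    exact hm
  set m := ν.real Set.univ with hmdef
  set a := freqSq μ₀
  have hm0' : 0 ≤ m := measureReal_nonneg
  have ha : 0 ≤ a := integral_nonneg fun p => sq_nonneg _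
  set Λ := tailSum ((1 + m) / 2)
  have hΛ : 0 ≤ Λ := tailSum_nonneg (by linarith)
  set Kc := Λ * ((2 * a + 1) * 2 + (a + 1) ^ 2) + 2 * (2 * a + 1) with hKc
  have hKc0 : 0 < Kc := by positivity
  refine ⟨min (min 1 ((1 - m) / 3)) (2 * c₀ / Kc), by
    refine lt_min (lt_min one_pos (by linarith)) (by positivity), by
    have := min_le_left (min 1 ((1 - m) / 3)) (2 * c₀ / Kc)
    have := min_le_right 1 ((1 - m) / 3)
    linarith, ?_⟩
  intro τ _ hτ hτm hτ2 c
  set e := τ.real Set.univ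
  set d := freqSq τ
  have hd0 : 0 ≤ d := integral_nonneg fun p => sq_nonneg _
  have he0 : 0 ≤ e := measureReal_nonneg
  set δ := min (min 1 ((1 - m) / 3)) (2 * c₀ / Kc)
  have hd : d ≤ δ := hτ2
  have hδ1 : δ ≤ 1 := (min_le_left _ _).trans (min_le_left _ _)
  have hδ2 : δ ≤ (1 - m) / 3 := (min_le_left _ _).trans (min_le_right _ _)
  have hδ3 : δ * Kc ≤ 2 * c₀ := (le_div_iff₀ hKc0).1 (min_le_right _ _)
  have hmass : (μ₀ + τ).real Set.univ = m + e := by
    rw [measureReal_add_apply, mass_map_zeroEmb]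
  have hlt : (μ₀ + τ).real Set.univ < 1 := by rw [hmass]; linarith
  have hfreq : freqSq (μ₀ + τ) = a + d := freqSq_add hm0 hτ
  have hres : μ₀.restrict zeroPhase = μ₀ :=
    Measure.restrict_eq_self_of_ae_mem (by rw [ae_iff]; exact map_zeroEmb_compl)
  have hb : a ≤ freqSq ((μ₀ + τ).restrict zeroPhase) := by
    rw [Measure.restrict_add, hres]
    exact integral_mono_measure (Measure.le_add_right le_rfl)
      (Filter.Eventually.of_forall fun q => sq_nonneg _) (hm0.add_measure hτ.restrict)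
  have hb' : freqSq ((μ₀ + τ).restrict zeroPhase) ≤ a + d := by
    rw [← hfreq]
    exact integral_mono_measure Measure.restrict_le_self
      (Filter.Eventually.of_forall fun q => sq_nonneg _) (hm0.add_measure hτ)
  have hy : m ≤ (μ₀ + τ).real zeroPhase := by
    rw [measureReal_add_apply]
    have : μ₀.real zeroPhase = m := by
      rw [← measureReal_restrict_apply_univ, hres, mass_map_zeroEmb]
    rw [this]
    linarith [measureReal_nonneg (μ := τ) (s := zeroPhase)]
  have hy' : (μ₀ + τ).real zeroPhase ≤ m + e := by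
    rw [← hmass]; exact measureReal_mono (Set.subset_univ _)
  have hmix : mixedSize (μ₀ + τ) ≤ δ * ((2 * a + 1) * 2 + (a + 1) ^ 2) := by
    unfold mixedSize
    rw [hfreq, hmass]
    set b := freqSq ((μ₀ + τ).restrict zeroPhase)
    set y := (μ₀ + τ).real zeroPhase
    have b2 : a ^ 2 ≤ b ^ 2 := pow_le_pow_left₀ ha hb _
    have t1 : (a + d) ^ 2 - b ^ 2 ≤ δ * (2 * a + 1) := by
      nlinarith [mul_le_mul_of_nonneg_left (hd.trans hδ1) hd0, mul_le_mul_of_nonneg_left hd ha]
    have t1' : 0 ≤ (a + d) ^ 2 - b ^ 2 :=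
      sub_nonneg.2 (pow_le_pow_left₀ (ha.trans hb) hb' _)
    have t2 : b ^ 2 ≤ (a + 1) ^ 2 := pow_le_pow_left₀ (ha.trans hb) (by linarith) _
    have p1 : ((a + d) ^ 2 - b ^ 2) * (m + e) ≤ δ * (2 * a + 1) * 2 :=
      mul_le_mul t1 (by linarith) (by linarith) (mul_nonneg (hd0.trans hd) (by linarith))
    have p2 : b ^ 2 * (m + e - y) ≤ (a + 1) ^ 2 * δ :=
      mul_le_mul t2 (by linarith) (by linarith) (sq_nonneg _)
    linarith
  have hdom : Dominated (μ₀ + τ) := by
    refine ⟨hm0.add_measure hτ, c₀ - δ * (2 * a + 1), fun ρ hρ => ?_, ?_⟩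
    · refine le_trans ?_ (psi2_add_ge hm0 hτ hρ)
      have := hc ρ hρ
      nlinarith [mul_le_mul_of_nonneg_left hd ha, mul_le_mul_of_nonneg_left (hd.trans hδ1) hd0]
    · have h1 : tailSum ((μ₀ + τ).real Set.univ) ≤ Λ :=
        tailSum_mono measureReal_nonneg (by rw [hmass]; linarith) (by linarith)
      have hm0'' : 0 ≤ mixedSize (μ₀ + τ) := by
        unfold mixedSize
        rw [hfreq, hmass]
        exact add_nonneg (mul_nonneg (sub_nonneg.2 (pow_le_pow_left₀ (ha.trans hb) hb' _))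
          (by linarith)) (mul_nonneg (sq_nonneg _) (by linarith))
      have h2 := mul_le_mul h1 hmix hm0'' hΛ
      rw [hKc] at hδ3
      linarith
  have h := blockConcave_of_dominated hlt hdom c
  have e1 : ∀ z, cosT (μ₀ + τ) z =
      (∫ t, Real.cos (t * z) ∂ν) + ∫ p, Real.cos (p.1 * z + p.2) ∂τ := by
    intro z
    have hi : ∀ (σ : Measure (ℝ × ℝ)) [IsFiniteMeasure σ],
        Integrable (fun p : ℝ × ℝ => Real.cos (p.1 * z + p.2)) σ := fun σ _ =>
      integrable_of_abs_le (K := 1) (by fun_prop) fun p => Real.abs_cos_le_one _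
    rw [← cosT_map_zeroEmb, cosT, cosT, integral_add_measure (hi _) (hi _)]
  unfold pot at h
  simp only [e1, ← sub_sub] at h
  exact h

theorem blockConcave_smallAmplitude (hm : Integrable (fun p => p.1 ^ 2) τ)
    (hpos : ∀ ρ ∈ Set.Icc (-1 : ℝ) 1, 0 < ∫ g : Fin 2 → ℝ, secondDeriv τ (g 0) *
      secondDeriv τ (ρ * g 0 + Real.sqrt (1 - ρ ^ 2) * g 1)
        ∂Measure.pi (fun _ => gaussianReal 0 1)) :
    ∃ ε₀ > 0, ε₀ * τ.real Set.univ < 1 ∧ ∀ ε : ℝ, 0 < ε → ε ≤ ε₀ → ∀ c : ℝ, BlockConcave fun z =>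
      c + Real.log (1 - ε * ∫ p, Real.cos (p.1 * z + p.2) ∂τ) := by
  obtain ⟨ρ₀, hρ₀, hmin⟩ := isCompact_Icc.exists_isMinOn
    (Set.nonempty_Icc.2 (by norm_num : (-1 : ℝ) ≤ 1)) (continuousOn_psi2 hm)
  set c₀ := psi2 τ ρ₀
  have hc₀ : 0 < c₀ := by
    rw [show c₀ = psi2 τ ρ₀ from rfl, psi2_eq_correlation hm hρ₀]
    exact hpos ρ₀ hρ₀
  have hc : ∀ ρ ∈ Set.Icc (-1 : ℝ) 1, c₀ ≤ psi2 τ ρ := fun ρ hρ => hmin hρ
  set m := τ.real Set.univ with hmm
  set a := freqSq τ
  have hm0 : 0 ≤ m := measureReal_nonneg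
  set Kc := tailSum (1 / 2) * (a ^ 2 * m + a ^ 2 * m) + 1 with hKc
  have hT := tailSum_nonneg (show (0 : ℝ) ≤ 1 / 2 by norm_num)
  have hKc0 : 0 < Kc := by positivity
  refine ⟨min (1 / (2 * (m + 1))) (2 * c₀ / Kc), by positivity, by
    have := min_le_left (1 / (2 * (m + 1))) (2 * c₀ / Kc)
    refine lt_of_le_of_lt (mul_le_mul_of_nonneg_right this hm0) ?_
    rw [div_mul_eq_mul_div, one_mul, div_lt_one (by positivity)]
    linarith, fun ε hε hεle c => ?_⟩
  have hε1 : ε * (2 * (m + 1)) ≤ 1 := (le_div_iff₀ (by positivity)).1 (hεle.trans (min_le_left _ _))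
  have hε2 : ε * Kc ≤ 2 * c₀ := (le_div_iff₀ hKc0).1 (hεle.trans (min_le_right _ _))
  set με : Measure (ℝ × ℝ) := ENNReal.ofReal ε • τ with hμε
  have : IsFiniteMeasure με := τ.smul_finite ENNReal.ofReal_ne_top
  have hmass : με.real Set.univ = ε * m := by
    simp [hμε, measureReal_ennreal_smul_apply, ENNReal.toReal_ofReal hε.le, hmm]
  have hhalf : ε * m ≤ 1 / 2 := by linarith
  have hlt : με.real Set.univ < 1 := by rw [hmass]; linarith
  have hmε : Integrable (fun p => p.1 ^ 2) με := hm.smul_measure ENNReal.ofReal_ne_top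
  have hsymm : symm με = ENNReal.ofReal ε • symm τ := by
    simp only [hμε, symm, Measure.map_smul, ← smul_add, smul_comm (ENNReal.ofReal ε)]
  have hψ : ∀ ρ ∈ Set.Icc (-1 : ℝ) 1, ε ^ 2 * c₀ ≤ psi2 με ρ := by
    intro ρ hρ
    have e : psi2 με ρ = ε ^ 2 * psi2 τ ρ := by
      rw [psi2_eq_kernInt hmε hρ, psi2_eq_kernInt hm hρ, hsymm]
      simp only [kernInt, integral_smul_measure, ENNReal.toReal_ofReal hε.le, smul_eq_mul,
        integral_const_mul]
      ring
    rw [e]
    exact mul_le_mul_of_nonneg_left (hc ρ hρ) (sq_nonneg _)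
  have hfq : freqSq με = ε * a := by
    simp only [hμε, freqSq, integral_smul_measure, ENNReal.toReal_ofReal hε.le, smul_eq_mul]
    rfl
  have hmix : mixedSize με ≤ ε ^ 3 * (a ^ 2 * m + a ^ 2 * m) := by
    unfold mixedSize
    rw [hfq, hmass]
    have h1 : freqSq (με.restrict zeroPhase) ^ 2 ≤ (ε * a) ^ 2 := by
      refine pow_le_pow_left₀ (integral_nonneg fun q => sq_nonneg _) ?_ _
      rw [← hfq]
      exact integral_mono_measure Measure.restrict_le_self
        (Filter.Eventually.of_forall fun q => sq_nonneg _) hmε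
    have h2 : 0 ≤ με.real zeroPhase := measureReal_nonneg
    have h3 : 0 ≤ ε * m := by positivity
    nlinarith [sq_nonneg (freqSq (με.restrict zeroPhase)), mul_le_mul_of_nonneg_right h1 h3]
  have hdom : Dominated με := by
    refine ⟨hmε, ε ^ 2 * c₀, hψ, ?_⟩
    have hT' : tailSum (με.real Set.univ) ≤ tailSum (1 / 2) :=
      tailSum_mono measureReal_nonneg (by rw [hmass]; exact hhalf) (by norm_num)
    have h1 := mul_le_mul_of_nonneg_left hmix (tailSum_nonneg (measureReal_nonneg (μ := με)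
      (s := Set.univ)))
    have h2 := mul_le_mul_of_nonneg_right hT' (show 0 ≤ ε ^ 3 * (a ^ 2 * m + a ^ 2 * m) by positivity)
    have h3 := mul_le_mul_of_nonneg_left hε2 (sq_nonneg ε)
    have h4 : 0 ≤ ε ^ 3 := by positivity
    rw [hKc] at h3
    linarith
  have h := blockConcave_of_dominated hlt hdom c
  have e1 : ∀ z, cosT με z = ε * ∫ p, Real.cos (p.1 * z + p.2) ∂τ := fun z => by
    simp only [hμε, cosT, integral_smul_measure, ENNReal.toReal_ofReal hε.le, smul_eq_mul]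
  unfold pot at h
  simp only [e1] at h
  exact h

theorem blockConcave_smallBeta_aux {φ φ1 φ2 φ3 : ℝ → ℝ} {A : ℝ} (d1 : ∀ x, HasDerivAt φ (φ1 x) x)
    (d2 : ∀ x, HasDerivAt φ1 (φ2 x) x) (d3 : ∀ x, HasDerivAt φ2 (φ3 x) x)
    (b0 : ∀ x, |φ x| ≤ A) (b1 : ∀ x, |φ1 x| ≤ A) (b2 : ∀ x, |φ2 x| ≤ A) (b3 : ∀ x, |φ3 x| ≤ A)
    (hA : 1 ≤ A) (hpos : ∀ ρ ∈ Set.Icc (-1 : ℝ) 1, 0 < corr2 φ2 ρ) :
    ∃ β₀ > 0, ∀ β : ℝ, |β| ≤ β₀ → BlockConcave fun z => β * φ z := by
  have c2 : Continuous φ2 := continuous_iff_continuousAt.2 fun x => (d3 x).continuousAt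
  have c1 : Continuous φ1 := continuous_iff_continuousAt.2 fun x => (d2 x).continuousAt
  have c0 : Continuous φ := continuous_iff_continuousAt.2 fun x => (d1 x).continuousAt
  have hA0 : 0 ≤ A := zero_le_one.trans hA
  have hcont : Continuous (corr2 φ2) := by
    refine continuous_of_dominated (bound := fun _ => A * A) (fun r => ?_) (fun r => ?_)
      (integrable_const _) (Eventually.of_forall fun g => ?_)
    · exact ((c2.measurable.comp (measurable_pi_apply 0)).mul (c2.measurable.comp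
        (by fun_prop : Measurable fun g : Fin 2 → ℝ =>
          r * g 0 + Real.sqrt (1 - r ^ 2) * g 1))).aestronglyMeasurable
    · refine Eventually.of_forall fun g => ?_
      rw [Real.norm_eq_abs, abs_mul]
      exact mul_le_mul (b2 _) (b2 _) (abs_nonneg _) hA0
    · exact continuous_const.mul (c2.comp (by fun_prop))
  obtain ⟨ρ₀, hρ₀, hmin⟩ := isCompact_Icc.exists_isMinOn
    (Set.nonempty_Icc.2 (by norm_num : (-1 : ℝ) ≤ 1)) hcont.continuousOn
  set c₀ := corr2 φ2 ρ₀
  have hc₀ : 0 < c₀ := hpos ρ₀ hρ₀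
  set C₁ := 3 * (4 * A ^ 2) * A + (4 * A ^ 2) ^ 2 with hC₁
  set D := 10 * (2 * A) * (6 * A ^ 2) ^ 2 + 32 * (6 * A ^ 2) ^ 3 + C₁ with hD
  have hD0 : 0 < D := by positivity
  refine ⟨min (1 / (4 * A)) (c₀ / D), by positivity, fun β hβ => ?_⟩
  set b := |β|
  have hb0 : 0 ≤ b := abs_nonneg β
  have hbA : b * (4 * A) ≤ 1 := (le_div_iff₀ (by positivity)).1 (hβ.trans (min_le_left _ _))
  have hbD : b * D ≤ c₀ := (le_div_iff₀ hD0).1 (hβ.trans (min_le_right _ _))
  have hb1 : b ≤ 1 := by nlinarith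
  set W := expWeight (β := β) d1 d2 d3 b0 b1 b2 b3 hA hb1
  have hx : ∀ z, |β * φ z| ≤ b * A := fun z => by
    rw [abs_mul]; exact mul_le_mul_of_nonneg_left (b0 z) hb0
  have hexp : ∀ z, |Real.exp (β * φ z) - 1| ≤ 2 * A * b := fun z => by
    refine (Real.abs_exp_sub_one_le ((hx z).trans (by nlinarith))).trans ?_
    have := hx z
    linarith
  have hexp2 : ∀ z, Real.exp (β * φ z) ≤ 2 := fun z => by
    have := (abs_le.1 (hexp z)).2
    nlinarith
  set r : ℝ → ℝ := fun z => W.U2 z - β * φ2 z with hrdef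
  have hr : ∀ z, |r z| ≤ 4 * A ^ 2 * b ^ 2 := fun z => by
    have e : r z = β * φ2 z * (Real.exp (β * φ z) - 1) +
        β ^ 2 * φ1 z ^ 2 * Real.exp (β * φ z) := by
      simp only [hrdef, W, expWeight]; ring
    rw [e]
    refine (abs_add_le _ _).trans ?_
    have t1 : |β * φ2 z * (Real.exp (β * φ z) - 1)| ≤ b * A * (2 * A * b) := by
      rw [abs_mul, abs_mul]
      exact mul_le_mul (mul_le_mul_of_nonneg_left (b2 z) hb0) (hexp z) (abs_nonneg _) (by positivity)
    have t2 : |β ^ 2 * φ1 z ^ 2 * Real.exp (β * φ z)| ≤ b ^ 2 * A ^ 2 * 2 := by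
      rw [abs_mul, abs_mul, abs_pow, abs_pow, Real.abs_exp]
      exact mul_le_mul (mul_le_mul_of_nonneg_left (pow_le_pow_left₀ (abs_nonneg _) (b1 z) 2)
        (sq_nonneg _)) (hexp2 z) (Real.exp_pos _).le (by positivity)
    linarith [show b * A * (2 * A * b) = 2 * A ^ 2 * b ^ 2 by ring,
      show b ^ 2 * A ^ 2 * 2 = 2 * A ^ 2 * b ^ 2 by ring]
  have hW : Gentle W (6 * A ^ 2 * b) (2 * A * b) (b ^ 2 * (c₀ - C₁ * b)) := by
    refine ⟨fun z => ?_, fun z => ?_, fun z => hexp z, by nlinarith, fun ρ hρ => ?_, ?_⟩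
    · simp only [W, expWeight, abs_mul, Real.abs_exp]
      refine (mul_le_mul (mul_le_mul_of_nonneg_left (b1 z) hb0) (hexp2 z) (Real.exp_pos _).le
        (by positivity)).trans ?_
      nlinarith [mul_le_mul_of_nonneg_left hA (mul_nonneg hb0 hA0)]
    · have e : W.U2 z = β * φ2 z + r z := by simp only [hrdef]; ring
      rw [e]
      refine (abs_add_le _ _).trans ?_
      rw [abs_mul]
      have := mul_le_mul_of_nonneg_left (b2 z) hb0
      have := hr z
      have h1 : b * A ≤ 2 * A ^ 2 * b := by nlinarith [mul_le_mul_of_nonneg_left hA (mul_nonneg hb0 hA0)]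
      have h2 : 4 * A ^ 2 * b ^ 2 ≤ 4 * A ^ 2 * b := by
        nlinarith [mul_le_mul_of_nonneg_left hb1 hb0, sq_nonneg A]
      linarith
    · set g1 : (Fin 2 → ℝ) → ℝ := fun g => g 0
      set g2 : (Fin 2 → ℝ) → ℝ := fun g => ρ * g 0 + Real.sqrt (1 - ρ ^ 2) * g 1
      have hm1 : Measurable g1 := measurable_pi_apply 0
      have hm2 : Measurable g2 := (by fun_prop : Measurable fun g : Fin 2 → ℝ =>
        ρ * g 0 + Real.sqrt (1 - ρ ^ 2) * g 1)
      have hW2 : Measurable W.U2 := W.cont2.measurable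
      have hlow : ∀ g, β ^ 2 * (φ2 (g1 g) * φ2 (g2 g)) - C₁ * b ^ 3 ≤
          W.U2 (g1 g) * W.U2 (g2 g) := by
        intro g
        have e : ∀ z, W.U2 z = β * φ2 z + r z := fun z => by simp only [hrdef]; ring
        rw [e, e]
        have ht : ∀ x y, |β * φ2 x * r y| ≤ b * A * (4 * A ^ 2 * b ^ 2) := fun x y => by
          rw [abs_mul, abs_mul]
          exact mul_le_mul (mul_le_mul_of_nonneg_left (b2 x) hb0) (hr y) (abs_nonneg _) (by positivity)
        have t1 := abs_le.1 (ht (g1 g) (g2 g))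
        have t2 := abs_le.1 (ht (g2 g) (g1 g))
        have t3 : |r (g1 g) * r (g2 g)| ≤ (4 * A ^ 2) ^ 2 * b ^ 3 := by
          rw [abs_mul]
          refine (mul_le_mul (hr _) (hr _) (abs_nonneg _) (by positivity)).trans ?_
          have := mul_le_mul_of_nonneg_left hb1 (show 0 ≤ (4 * A ^ 2) ^ 2 * b ^ 3 by positivity)
          linarith
        have t3' := abs_le.1 t3
        have : 0 ≤ 4 * A ^ 2 * A * b ^ 3 := by positivity
        rw [hC₁]
        linarith
      have iW : Integrable (fun g => W.U2 (g1 g) * W.U2 (g2 g)) (gam (Fin 2)) :=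
        integrable_of_abs_le (K := W.A * W.A) ((hW2.comp hm1).mul (hW2.comp hm2)) fun g => by
          rw [abs_mul]; exact mul_le_mul (W.b2 _) (W.b2 _) (abs_nonneg _) W.A_nonneg
      have iφ : Integrable (fun g => φ2 (g1 g) * φ2 (g2 g)) (gam (Fin 2)) :=
        integrable_of_abs_le (K := A * A) ((c2.measurable.comp hm1).mul (c2.measurable.comp hm2))
          fun g => by rw [abs_mul]; exact mul_le_mul (b2 _) (b2 _) (abs_nonneg _) hA0
      have h := integral_mono ((iφ.const_mul (β ^ 2)).sub (integrable_const (C₁ * b ^ 3))) iW hlow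
      simp only [Pi.sub_apply] at h
      rw [integral_sub (iφ.const_mul (β ^ 2)) (integrable_const _), integral_const_mul] at h
      simp only [integral_const, probReal_univ, smul_eq_mul, one_mul] at h
      have hρc : c₀ ≤ corr2 φ2 ρ := hmin hρ
      have h2 : b ^ 2 * c₀ ≤ β ^ 2 * corr2 φ2 ρ := by
        rw [show b ^ 2 = β ^ 2 from sq_abs β]
        exact mul_le_mul_of_nonneg_left hρc (sq_nonneg β)
      refine le_trans ?_ h
      refine le_trans (le_of_eq (by ring : b ^ 2 * (c₀ - C₁ * b) = b ^ 2 * c₀ - C₁ * b ^ 3)) ?_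
      exact sub_le_sub_right h2 _
    · have := mul_le_mul_of_nonneg_left hbD (sq_nonneg b)
      rw [hD] at this
      linarith
  have hf : Usable (fun z => β * φ z) (b * A) :=
    usable_of_deriv_bound (fun x => (d1 x).const_mul β) hx (L := b * A) fun x => by
      rw [abs_mul]; exact mul_le_mul_of_nonneg_left (b1 x) hb0
  exact blockConcave_of_gentle hf W (fun z => rfl) hW

theorem blockConcave_smallBeta {φ : ℝ → ℝ} (hφ : ContDiff ℝ 3 φ)
    (hb : ∃ A, ∀ j ≤ 3, ∀ x, |iteratedDeriv j φ x| ≤ A)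
    (hpos : ∀ ρ ∈ Set.Icc (-1 : ℝ) 1, 0 < corr2 (deriv (deriv φ)) ρ) :
    ∃ β₀ > 0, ∀ β : ℝ, |β| ≤ β₀ → BlockConcave fun z => β * φ z := by
  obtain ⟨A, hA⟩ := hb
  have hd : ∀ j : ℕ, j < 3 → ∀ x, HasDerivAt (iteratedDeriv j φ) (iteratedDeriv (j + 1) φ x) x := by
    intro j hj x
    rw [iteratedDeriv_succ]
    exact (hφ.differentiable_iteratedDeriv j (by exact_mod_cast hj) x).hasDerivAt
  have d1 := hd 0 (by norm_num)
  have d2 := hd 1 (by norm_num)
  have d3 := hd 2 (by norm_num)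
  rw [iteratedDeriv_zero] at d1
  have e2 : iteratedDeriv 2 φ = deriv (deriv φ) := by
    rw [iteratedDeriv_succ, iteratedDeriv_one]
  have h0 : ∀ x, |φ x| ≤ max A 1 := fun x => by
    have := hA 0 (by norm_num) x
    rw [iteratedDeriv_zero] at this
    exact this.trans (le_max_left _ _)
  exact blockConcave_smallBeta_aux d1 d2 d3 h0 (fun x => (hA 1 (by norm_num) x).trans (le_max_left _ _))
    (fun x => (hA 2 (by norm_num) x).trans (le_max_left _ _))
    (fun x => (hA 3 le_rfl x).trans (le_max_left _ _)) (le_max_right _ _)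
    (fun ρ hρ => by rw [e2]; exact hpos ρ hρ)


end Vale.Agent.P157.Parisi.Classes
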