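import Vale.Agent.P157.Parisi.Classes.Concave
import Vale.Agent.P157.Parisi.Main.Mass

/-!
The four families are smooth and block concave; the values of the Parisi functional are bounded
below.
-/

noncomputable section

open MeasureTheory ProbabilityTheory Filter
open scoped ENNReal Topology

namespace Vale.Agent.P157.Parisi.Classes

open Vale.Agent.P157

section Trig

variable {μ : Measure (ℝ × ℝ)} [IsFiniteMeasure μ]

/-- `∫ tᵏ cos (t z + φ + k π / 2) μ(dt, dφ)`. -/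
def trig (μ : Measure (ℝ × ℝ)) (k : ℕ) (z : ℝ) : ℝ :=
  ∫ p, p.1 ^ k * Real.cos (p.1 * z + p.2 + k * (Real.pi / 2)) ∂μ

omit [IsFiniteMeasure μ] in
lemma trig_zero : trig μ 0 = cosT μ := by
  funext z
  simp [trig, cosT]

lemma integrable_pow_abs (h3 : Integrable (fun p => |p.1| ^ 3) μ) {k : ℕ} (hk : k ≤ 3) :
    Integrable (fun p : ℝ × ℝ => |p.1| ^ k) μ := by
  refine ((integrable_const (1 : ℝ)).add h3).mono' (by fun_prop)
    (Eventually.of_forall fun p => ?_)
  rw [Real.norm_eq_abs, abs_of_nonneg (pow_nonneg (abs_nonneg _) _), Pi.add_apply]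
  rcases le_total |p.1| 1 with h | h
  · have := pow_le_one₀ (n := k) (abs_nonneg p.1) h
    have := pow_nonneg (abs_nonneg p.1) 3
    linarith
  · have := pow_le_pow_right₀ h hk
    linarith

lemma abs_trig_term_le (k : ℕ) (z : ℝ) (p : ℝ × ℝ) :
    |p.1 ^ k * Real.cos (p.1 * z + p.2 + k * (Real.pi / 2))| ≤ |p.1| ^ k := by
  rw [abs_mul, abs_pow]
  exact mul_le_of_le_one_right (pow_nonneg (abs_nonneg _) _) (Real.abs_cos_le_one _)

lemma integrable_trig (h3 : Integrable (fun p => |p.1| ^ 3) μ) {k : ℕ} (hk : k ≤ 3) (z : ℝ) :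
    Integrable (fun p => p.1 ^ k * Real.cos (p.1 * z + p.2 + k * (Real.pi / 2))) μ :=
  (integrable_pow_abs h3 hk).mono' (by fun_prop) (Eventually.of_forall fun p =>
    (Real.norm_eq_abs _).trans_le (abs_trig_term_le k z p))

lemma abs_trig_le (h3 : Integrable (fun p => |p.1| ^ 3) μ) {k : ℕ} (hk : k ≤ 3) (z : ℝ) :
    |trig μ k z| ≤ ∫ p, |p.1| ^ k ∂μ :=
  abs_integral_le_integral_abs.trans
    (integral_mono (integrable_trig h3 hk z).abs (integrable_pow_abs h3 hk) (abs_trig_term_le k z))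

lemma hasDerivAt_trig (h3 : Integrable (fun p => |p.1| ^ 3) μ) {k : ℕ} (hk : k < 3) (z : ℝ) :
    HasDerivAt (trig μ k) (trig μ (k + 1) z) z := by
  refine (hasDerivAt_integral_of_dominated_loc_of_deriv_le
    (μ := μ) (F' := fun x (p : ℝ × ℝ) => p.1 ^ (k + 1) * Real.cos (p.1 * x + p.2 + (k + 1 : ℕ) * (Real.pi / 2)))
    (bound := fun p : ℝ × ℝ => |p.1| ^ (k + 1)) Filter.univ_mem
    (Eventually.of_forall fun x => by fun_prop)
    (integrable_trig h3 hk.le z) (by fun_prop)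
    (Eventually.of_forall fun p x _ => (Real.norm_eq_abs _).trans_le (abs_trig_term_le _ _ _))
    (integrable_pow_abs h3 hk) (Eventually.of_forall fun p x _ => ?_)).2
  have h := ((((hasDerivAt_id' x).const_mul p.1).add_const p.2).add_const
    ((k : ℝ) * (Real.pi / 2))).cos.const_mul (p.1 ^ k)
  refine h.congr_deriv ?_
  rw [show p.1 * x + p.2 + (k + 1 : ℕ) * (Real.pi / 2) =
    p.1 * x + p.2 + k * (Real.pi / 2) + Real.pi / 2 by push_cast; ring, Real.cos_add_pi_div_two]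
  ring

/-- Trigonometric log-potentials with a third moment are smooth. -/
theorem smooth_pot (hμ : μ.real Set.univ < 1) (h3 : Integrable (fun p => |p.1| ^ 3) μ) (c : ℝ) :
    ∃ A, Smooth (pot μ c) A := by
  set a := 1 - μ.real Set.univ
  have ha : 0 < a := by simp only [a]; linarith
  set D : ℝ → ℝ := fun z => 1 - trig μ 0 z
  have hD : ∀ z, a ≤ D z := fun z => by
    simp only [D, trig_zero, a]
    exact (one_sub_mem z).1
  have hD0 : ∀ z, 0 < D z := fun z => ha.trans_le (hD z)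
  set T := trig μ
  have hT : ∀ k, k < 3 → ∀ z, HasDerivAt (T k) (T (k + 1) z) z := fun k hk => hasDerivAt_trig h3 hk
  have hdD : ∀ z, HasDerivAt D (-T 1 z) z := fun z => (hT 0 (by norm_num) z).const_sub 1
  set f1 : ℝ → ℝ := fun z => -T 1 z / D z with hf1
  set f2 : ℝ → ℝ := fun z => -T 2 z / D z - T 1 z ^ 2 / D z ^ 2 with hf2
  set f3 : ℝ → ℝ := fun z =>
    -T 3 z / D z - 3 * (T 1 z * T 2 z) / D z ^ 2 - 2 * T 1 z ^ 3 / D z ^ 3 with hf3
  have e : pot μ c = fun z => c + Real.log (D z) := by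
    funext z
    simp only [pot, D, trig_zero]
  have d1 : ∀ z, HasDerivAt (pot μ c) (f1 z) z := fun z => by
    rw [e]
    exact ((hdD z).log (hD0 z).ne').const_add c
  have d2 : ∀ z, HasDerivAt f1 (f2 z) z := fun z => by
    refine ((hT 1 (by norm_num) z).neg.div (hdD z) (hD0 z).ne').congr_deriv ?_
    simp only [f2, Pi.neg_apply]
    field_simp [(hD0 z).ne']
  have d3 : ∀ z, HasDerivAt f2 (f3 z) z := fun z => by
    refine (((hT 2 (by norm_num) z).neg.div (hdD z) (hD0 z).ne').sub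
      (((hT 1 (by norm_num) z).pow 2).div ((hdD z).pow 2) (pow_ne_zero 2 (hD0 z).ne'))).congr_deriv ?_
    simp only [f3, Pi.neg_apply, Pi.pow_apply]
    field_simp [(hD0 z).ne']
    push_cast
    ring
  have e1 : deriv (pot μ c) = f1 := funext fun z => (d1 z).deriv
  have e2 : deriv f1 = f2 := funext fun z => (d2 z).deriv
  have e3 : deriv f2 = f3 := funext fun z => (d3 z).deriv
  set M : ℕ → ℝ := fun k => ∫ p, |p.1| ^ k ∂μ
  have hM : ∀ k, 0 ≤ M k := fun k => integral_nonneg fun p => pow_nonneg (abs_nonneg _) _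
  have hb : ∀ k, k ≤ 3 → ∀ z, |T k z| ≤ M k := fun k hk => abs_trig_le h3 hk
  have hdiv : ∀ (x B : ℝ) (n : ℕ) (z : ℝ), |x| ≤ B → |x / D z ^ n| ≤ B / a ^ n := fun x B n z hx => by
    rw [abs_div, abs_pow, abs_of_pos (hD0 z)]
    exact div_le_div₀ ((abs_nonneg x).trans hx) hx (pow_pos ha n) (pow_le_pow_left₀ ha.le (hD z) n)
  set B1 := M 1 / a ^ 1
  set B2 := M 2 / a ^ 1 + M 1 ^ 2 / a ^ 2
  set B3 := M 3 / a ^ 1 + 3 * (M 1 * M 2) / a ^ 2 + 2 * M 1 ^ 3 / a ^ 3
  have g1 : ∀ z, |f1 z| ≤ B1 := fun z => by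
    have := hdiv (-T 1 z) (M 1) 1 z (by rw [abs_neg]; exact hb 1 (by norm_num) z)
    simpa only [f1, B1, pow_one] using this
  have g2 : ∀ z, |f2 z| ≤ B2 := fun z => by
    have t1 := hdiv (-T 2 z) (M 2) 1 z (by rw [abs_neg]; exact hb 2 (by norm_num) z)
    have t2 := hdiv (T 1 z ^ 2) (M 1 ^ 2) 2 z (by
      rw [abs_pow]; exact pow_le_pow_left₀ (abs_nonneg _) (hb 1 (by norm_num) z) 2)
    rw [pow_one] at t1
    exact (abs_sub _ _).trans (by simp only [B2, pow_one] at *; linarith)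
  have g3 : ∀ z, |f3 z| ≤ B3 := fun z => by
    have t1 := hdiv (-T 3 z) (M 3) 1 z (by rw [abs_neg]; exact hb 3 le_rfl z)
    have t2 := hdiv (3 * (T 1 z * T 2 z)) (3 * (M 1 * M 2)) 2 z (by
      rw [abs_mul, abs_mul, abs_of_pos (three_pos (α := ℝ))]
      exact mul_le_mul_of_nonneg_left (mul_le_mul (hb 1 (by norm_num) z) (hb 2 (by norm_num) z)
        (abs_nonneg _) (hM 1)) zero_le_three)
    have t3 := hdiv (2 * T 1 z ^ 3) (2 * M 1 ^ 3) 3 z (by
      rw [abs_mul, abs_pow, abs_two]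
      exact mul_le_mul_of_nonneg_left (pow_le_pow_left₀ (abs_nonneg _) (hb 1 (by norm_num) z) 3)
        zero_le_two)
    rw [pow_one] at t1
    have := abs_sub (-T 3 z / D z - 3 * (T 1 z * T 2 z) / D z ^ 2) (2 * T 1 z ^ 3 / D z ^ 3)
    have := abs_sub (-T 3 z / D z) (3 * (T 1 z * T 2 z) / D z ^ 2)
    simp only [B3, pow_one, f3] at *
    linarith
  have p0 : 0 ≤ potBound μ c := (abs_nonneg _).trans (abs_pot_le hμ 0)
  have p1 : 0 ≤ B1 := (abs_nonneg _).trans (g1 0)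
  have p2 : 0 ≤ B2 := (abs_nonneg _).trans (g2 0)
  have p3 : 0 ≤ B3 := (abs_nonneg _).trans (g3 0)
  refine ⟨potBound μ c + B1 + B2 + B3, ⟨fun z => (d1 z).differentiableAt, ?_, ?_,
    fun z => (abs_pot_le hμ z).trans (by linarith), ?_, ?_, ?_⟩⟩
  · rw [e1]; exact fun z => (d2 z).differentiableAt
  · rw [e1, e2]; exact fun z => (d3 z).differentiableAt
  · rw [e1]; exact fun z => (g1 z).trans (by linarith)
  · rw [e1, e2]; exact fun z => (g2 z).trans (by linarith)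
  · rw [e1, e2, e3]; exact fun z => (g3 z).trans (by linarith)

end Trig

lemma smooth_const_mul {φ : ℝ → ℝ} (hφ : ContDiff ℝ 3 φ)
    (hb : ∃ A, ∀ j ≤ 3, ∀ x, |iteratedDeriv j φ x| ≤ A) (β : ℝ) :
    ∃ A, Smooth (fun z => β * φ z) A := by
  obtain ⟨A, hA⟩ := hb
  have hdiff : ∀ j : ℕ, j < 3 → Differentiable ℝ (iteratedDeriv j φ) := fun j hj =>
    hφ.differentiable_iteratedDeriv j (by exact_mod_cast hj)
  have i0 : iteratedDeriv 0 φ = φ := iteratedDeriv_zero
  have i1 : iteratedDeriv 1 φ = deriv φ := iteratedDeriv_one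
  have i2 : iteratedDeriv 2 φ = deriv (deriv φ) := by rw [iteratedDeriv_succ, i1]
  have i3 : iteratedDeriv 3 φ = deriv (deriv (deriv φ)) := by rw [iteratedDeriv_succ, i2]
  have h0 := hdiff 0 (by norm_num)
  have h1 := hdiff 1 (by norm_num)
  have h2 := hdiff 2 (by norm_num)
  rw [i0] at h0
  rw [i1] at h1
  rw [i2] at h2
  have e1 : deriv (fun z => β * φ z) = fun z => β * deriv φ z :=
    funext fun z => deriv_const_mul _ (h0 z)
  have e2 : deriv (fun z => β * deriv φ z) = fun z => β * deriv (deriv φ) z :=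
    funext fun z => deriv_const_mul _ (h1 z)
  have e3 : deriv (fun z => β * deriv (deriv φ) z) = fun z => β * deriv (deriv (deriv φ)) z :=
    funext fun z => deriv_const_mul _ (h2 z)
  have hle : ∀ (ψ : ℝ → ℝ) (j : ℕ), j ≤ 3 → iteratedDeriv j φ = ψ → ∀ z, |β * ψ z| ≤ |β| * A :=
    fun ψ j hj e z => by
      rw [abs_mul]
      exact mul_le_mul_of_nonneg_left (e ▸ hA j hj z) (abs_nonneg _)
  refine ⟨|β| * A, ⟨h0.const_mul β, ?_, ?_, hle _ 0 (by norm_num) i0, ?_, ?_, ?_⟩⟩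
  · rw [e1]; exact h1.const_mul β
  · rw [e1, e2]; exact h2.const_mul β
  · rw [e1]; exact hle _ 1 (by norm_num) i1
  · rw [e1, e2]; exact hle _ 2 (by norm_num) i2
  · rw [e1, e2, e3]; exact hle _ 3 le_rfl i3

section Families

variable {ν : Measure ℝ} [IsFiniteMeasure ν]

omit [IsFiniteMeasure ν] in
lemma integrable_cube_map (h : Integrable (fun t => |t| ^ 3) ν) :
    Integrable (fun p : ℝ × ℝ => |p.1| ^ 3) (ν.map zeroEmb) := by
  rw [integrable_map_measure (by fun_prop) measurable_zeroEmb.aemeasurable]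
  exact h

lemma integrable_sq_of_cube {α : Type*} [MeasurableSpace α] {m : Measure α} [IsFiniteMeasure m]
    {u : α → ℝ} (hu : Measurable u) (h : Integrable (fun x => |u x| ^ 3) m) :
    Integrable (fun x => u x ^ 2) m := by
  refine ((integrable_const (1 : ℝ)).add h).mono' (by fun_prop)
    (Eventually.of_forall fun x => ?_)
  rw [Real.norm_eq_abs, abs_of_nonneg (sq_nonneg _), Pi.add_apply, ← sq_abs]
  rcases le_total |u x| 1 with h | h
  · have := pow_le_one₀ (n := 2) (abs_nonneg (u x)) h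
    have := pow_nonneg (abs_nonneg (u x)) 3
    linarith
  · have := pow_le_pow_right₀ h (show 2 ≤ 3 by norm_num)
    linarith

lemma smooth_positiveDefinite (hν : ν.real Set.univ < 1) (h3 : Integrable (fun t => |t| ^ 3) ν)
    (c : ℝ) : ∃ A, Smooth (fun z => c + Real.log (1 - ∫ t, Real.cos (t * z) ∂ν)) A := by
  have h := smooth_pot (μ := ν.map zeroEmb) (by rwa [mass_map_zeroEmb]) (integrable_cube_map h3) c
  unfold pot at h
  simp only [cosT_map_zeroEmb] at h
  exact h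

lemma smooth_sum {τ : Measure (ℝ × ℝ)} [IsFiniteMeasure τ]
    (hlt : ν.real Set.univ + τ.real Set.univ < 1) (h3 : Integrable (fun t => |t| ^ 3) ν)
    (hτ : Integrable (fun p => |p.1| ^ 3) τ) (c : ℝ) :
    ∃ A, Smooth (fun z =>
      c + Real.log (1 - (∫ t, Real.cos (t * z) ∂ν) - ∫ p, Real.cos (p.1 * z + p.2) ∂τ)) A := by
  have h := smooth_pot (μ := ν.map zeroEmb + τ)
    (by rwa [measureReal_add_apply, mass_map_zeroEmb]) ((integrable_cube_map h3).add_measure hτ) c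
  have e1 : ∀ z, cosT (ν.map zeroEmb + τ) z =
      (∫ t, Real.cos (t * z) ∂ν) + ∫ p, Real.cos (p.1 * z + p.2) ∂τ := by
    intro z
    have hi : ∀ (σ : Measure (ℝ × ℝ)) [IsFiniteMeasure σ],
        Integrable (fun p : ℝ × ℝ => Real.cos (p.1 * z + p.2)) σ := fun σ _ =>
      integrable_of_abs_le (K := 1) (by fun_prop) fun p => Real.abs_cos_le_one _
    rw [← cosT_map_zeroEmb, cosT, cosT, integral_add_measure (hi _) (hi _)]
  unfold pot at h
  simp only [e1, ← sub_sub] at h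
  exact h

lemma smooth_smul {τ : Measure (ℝ × ℝ)} [IsFiniteMeasure τ] {ε : ℝ} (hε : 0 ≤ ε)
    (hlt : ε * τ.real Set.univ < 1) (hτ : Integrable (fun p => |p.1| ^ 3) τ) (c : ℝ) :
    ∃ A, Smooth (fun z => c + Real.log (1 - ε * ∫ p, Real.cos (p.1 * z + p.2) ∂τ)) A := by
  have : IsFiniteMeasure (ENNReal.ofReal ε • τ) := τ.smul_finite ENNReal.ofReal_ne_top
  have h := smooth_pot (μ := ENNReal.ofReal ε • τ)
    (by rwa [measureReal_ennreal_smul_apply, ENNReal.toReal_ofReal hε])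
    (hτ.smul_measure ENNReal.ofReal_ne_top) c
  have e1 : ∀ z, cosT (ENNReal.ofReal ε • τ) z = ε * ∫ p, Real.cos (p.1 * z + p.2) ∂τ := fun z => by
    simp only [cosT, integral_smul_measure, ENNReal.toReal_ofReal hε, smul_eq_mul]
  unfold pot at h
  simp only [e1] at h
  exact h

end Families

/-- The explicit families are smooth and block concave. -/
theorem classes :
    (∀ (ν : Measure ℝ) [IsFiniteMeasure ν], ν.real Set.univ < 1 →
      Integrable (fun t => |t| ^ 3) ν → ∀ c : ℝ,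
      let f : ℝ → ℝ := fun z => c + Real.log (1 - ∫ t, Real.cos (t * z) ∂ν)
      ∃ A, Smooth f A ∧ BlockConcave f) ∧
    (∀ (ν : Measure ℝ) [IsFiniteMeasure ν], ν.real Set.univ < 1 →
      Integrable (fun t => |t| ^ 3) ν → ν {t | t ≠ 0} ≠ 0 →
      ∃ δ > 0, ∀ (τ : Measure (ℝ × ℝ)) [IsFiniteMeasure τ],
        Integrable (fun p => |p.1| ^ 3) τ → τ.real Set.univ ≤ δ → ∫ p, p.1 ^ 2 ∂τ ≤ δ → ∀ c : ℝ,
        let f : ℝ → ℝ := fun z =>
          c + Real.log (1 - (∫ t, Real.cos (t * z) ∂ν) - ∫ p, Real.cos (p.1 * z + p.2) ∂τ)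
        ∃ A, Smooth f A ∧ BlockConcave f) ∧
    (∀ (τ : Measure (ℝ × ℝ)) [IsFiniteMeasure τ], Integrable (fun p => |p.1| ^ 3) τ →
      (∀ ρ ∈ Set.Icc (-1 : ℝ) 1, 0 < ∫ g : Fin 2 → ℝ, secondDeriv τ (g 0) *
          secondDeriv τ (ρ * g 0 + Real.sqrt (1 - ρ ^ 2) * g 1)
            ∂Measure.pi (fun _ => gaussianReal 0 1)) →
      ∃ ε₀ > 0, ∀ ε : ℝ, 0 < ε → ε ≤ ε₀ → ∀ c : ℝ,
        let f : ℝ → ℝ := fun z => c + Real.log (1 - ε * ∫ p, Real.cos (p.1 * z + p.2) ∂τ)
        ∃ A, Smooth f A ∧ BlockConcave f) ∧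
    (∀ φ : ℝ → ℝ, ContDiff ℝ 3 φ → (∃ A, ∀ j ≤ 3, ∀ x, |iteratedDeriv j φ x| ≤ A) →
      (∀ ρ ∈ Set.Icc (-1 : ℝ) 1, 0 < ∫ g : Fin 2 → ℝ, deriv (deriv φ) (g 0) *
          deriv (deriv φ) (ρ * g 0 + Real.sqrt (1 - ρ ^ 2) * g 1)
            ∂Measure.pi (fun _ => gaussianReal 0 1)) →
      ∃ β₀ > 0, ∀ β : ℝ, |β| ≤ β₀ →
        let f : ℝ → ℝ := fun z => β * φ z
        ∃ A, Smooth f A ∧ BlockConcave f) := by
  refine ⟨fun ν _ hν h3 c => ?_, fun ν _ hν h3 hne => ?_, fun τ _ h3 hpos => ?_,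
    fun φ hφ hb hpos => ?_⟩
  · obtain ⟨A, hA⟩ := smooth_positiveDefinite hν h3 c
    exact ⟨A, hA, blockConcave_positiveDefinite hν c⟩
  · obtain ⟨δ, hδ, hδ1, h⟩ :=
      blockConcave_neighbourhood hν (integrable_sq_of_cube measurable_id h3) hne
    refine ⟨δ, hδ, fun τ _ hτ hm hm2 c => ?_⟩
    obtain ⟨A, hA⟩ := smooth_sum (c := c) (show ν.real Set.univ + τ.real Set.univ < 1 by linarith)
      h3 hτ
    exact ⟨A, hA, h τ (integrable_sq_of_cube measurable_fst hτ) hm hm2 c⟩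
  · obtain ⟨ε₀, hε₀, hε1, h⟩ :=
      blockConcave_smallAmplitude (integrable_sq_of_cube measurable_fst h3) hpos
    refine ⟨ε₀, hε₀, fun ε he hle c => ?_⟩
    obtain ⟨A, hA⟩ := smooth_smul he.le
      ((mul_le_mul_of_nonneg_right hle measureReal_nonneg).trans_lt hε1) h3 c
    exact ⟨A, hA, h ε he hle c⟩
  · obtain ⟨β₀, hβ₀, h⟩ := blockConcave_smallBeta hφ hb hpos
    refine ⟨β₀, hβ₀, fun β hβ => ?_⟩
    obtain ⟨A, hA⟩ := smooth_const_mul hφ hb β
    exact ⟨A, hA, h β hβ⟩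

lemma layer_nonneg {m δ : ℝ} {F : ℝ → ℝ} (hm : 0 < m) (hF : ∀ x, 0 ≤ F x) (x : ℝ) :
    0 ≤ layer m δ F x := by
  refine mul_nonneg (one_div_nonneg.2 hm.le) ?_
  by_cases hi : Integrable (fun g => Real.exp (m * F (x + Real.sqrt δ * g))) (gaussianReal 0 1)
  · refine Real.log_nonneg ?_
    calc (1 : ℝ) = ∫ _, (1 : ℝ) ∂gaussianReal 0 1 := by simp
      _ ≤ _ := integral_mono (integrable_const _) hi fun g =>
          Real.one_le_exp (mul_nonneg hm.le (hF _))
  · simp [integral_undef hi]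

lemma level_nonneg : ∀ {r : ℕ} {m : Fin r → ℝ} (q : Fin (r + 1) → ℝ) {φ : ℝ → ℝ},
    (∀ i, 0 < m i) → (∀ x, 0 ≤ φ x) → ∀ (p : Fin (r + 1)) (x : ℝ), 0 ≤ level m q φ p x
  | 0, _, _, _, _, h, _, x => h x
  | r + 1, m, q, φ, hm, h, p, x => by
    have ih := level_nonneg (m := Fin.tail m) (Fin.tail q) (fun i => hm i.succ) h
    induction p using Fin.cases with
    | zero => exact layer_nonneg (hm 0) (ih 0) x
    | succ i => exact ih i x

/-- The values of the functional are bounded below. -/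
theorem bddBelow_parisiValues (hS : SlopeStmt) {α A : ℝ} {f : ℝ → ℝ} (hα : 0 < α)
    (hf : Smooth f A) : BddBelow (parisiValues α f) := by
  refine ⟨-(α * A) - α * A ^ 2 / 2, ?_⟩
  rintro v ⟨r, m, q, hq, rfl⟩
  set ξ : Path := ⟨r, m, q, hq⟩
  obtain ⟨-, hs⟩ := hS f A hf ξ
  have hpat : -A ≤ patValue f m q := (abs_le.1 (Main.abs_patValue_le hf ξ)).1
  have hlog : ∀ x, 0 ≤ Real.log (Real.cosh x) := fun x => Real.log_nonneg (Real.one_le_cosh x)
  have hsite : -(α * A ^ 2) / 2 ≤ siteValue m fun p => α * slope f m q p := by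
    have h1 : 0 ≤ ∫ g, level m (fun p => α * slope f m q p) (fun x => Real.log (Real.cosh x)) 0
        (Real.sqrt (α * slope f m q 0) * g) ∂gaussianReal 0 1 :=
      integral_nonneg fun g => level_nonneg _ hq.pos hlog _ _
    obtain ⟨-, -, h2, h3⟩ := hs (Fin.last r)
    have := mul_le_mul_of_nonneg_left (h2.trans h3) hα.le
    unfold siteValue
    linarith
  have hw : 0 ≤ α / 2 * ∑ p, weight m p * q p * slope f m q p :=
    mul_nonneg (by positivity) (Finset.sum_nonneg fun p _ => mul_nonneg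
      (mul_nonneg (Main.weight_nonneg hq p) (hq.nonneg.trans (hq.mono (Fin.zero_le p)))) (hs p).1)
  have := mul_le_mul_of_nonneg_left hpat hα.le
  unfold parisi
  linarith

end Vale.Agent.P157.Parisi.Classes
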